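import Vale.Agent.P347.Gamma0.StageFinal

/-!
P347: `d^(o(1))` first order queries sample well-conditioned log-concave laws in total variation,
so the dimension exponent `γ_*` is zero.
-/

namespace Vale.Agent.Results.P347.ZeroExponent

open Filter Vale.Agent.P347

/-- `Q(d) ≤ d^{o(1)}`. -/
theorem result :
    (∀ a : ℝ, 0 < a → ∀ᶠ d : ℕ in atTop, ∃ N : ℕ, (N : ℝ) ≤ (d : ℝ) ^ a ∧
        ∃ G : Algo d N, UsesReals G ∧ Succeeds G) ∧
      limsup (fun d : ℕ => Real.log (queryComplexity d) / Real.log d) atTop = 0 :=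
  have hI := Gamma0.innerSampler Gamma0.templates
  ⟨queryBound_of_inner hI, exponent_zero_of_inner hI⟩

end Vale.Agent.Results.P347.ZeroExponent
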